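import Crest.Agent.N325.Du.Floor

/-!
# Row 325, P2 (helper61): consequences of bounded prices, falls along arcs
-/

set_option autoImplicit false
open Finset

namespace Crest.Agent.N325.Du

open Crest.Agent.N325.Ip Crest.Agent.N325.Ipm

variable {S : Sh} {P : Pm} {B : Bn} {N : Net} {e v Q : ℕ} {y : ℕ → ℝ}

/-- all prices are at most `2 Q`, the ghosts cost `5 Q` -/
structure Clm (S : Sh) (P : Pm) (N : Net) (Q : ℕ) : Prop where
  π : S.π = 5 * Q
  Z : S.Z ≤ Q
  Q1 : 1 ≤ Q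
  σ : 2 * Q * P.s0 ≤ P.D
  snk : ∀ e ∈ N.E, S.K (N.arc e) → ((N.arc e).c1 * P.D : ℤ) ≤ 2 * Q * N.X e

namespace Shp

theorem wg_eq (h : Shp S P B N) (k : (P.s0 : ℤ) ≤ N.X e) : wg P (fl P N e) = P.D / N.X e := by
  have k' : (P.s0 : ℝ) ≤ N.X e := by exact_mod_cast k
  rw [wg, fl, σ0, wt_of_le (div_le_div_of_nonneg_right k' h.Dpos.le), one_div_div]

theorem le_wg (h : Shp S P B N) (he : e ∈ N.E) : (P.D : ℝ) / N.X e ≤ wg P (fl P N e) := by
  rw [← one_div_div]; exact one_div_le_wt (h.fl_pos he)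

/-- the dual falls by at most `1.1 / flow` along a plain arc or a node arc -/
theorem fall (h : Shp S P B N) (hy : Dual P N y) (he : e ∈ N.E)
    (k : S.A (N.arc e) ∨ S.N (N.arc e)) (f : (P.s0 : ℤ) ≤ N.X e) :
    y (N.arc e).a - 11 / 10 * ((P.D : ℝ) / N.X e) ≤ y (N.arc e).b := by
  rw [← h.wg_eq f]
  rcases k with a | a
  · exact (h.relA hy he a).2
  · have := (h.relN hy he a).2
    have : 0 < wg P ((S.b : ℝ) / P.D - fl P N e) := wt_pos (by linarith [h.fl_lt_b he])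
    linarith

/-- the dual of a class is its price -/
theorem price_le (h : Shp S P B N) (hy : Dual P N y) (he : e ∈ N.E) (k : S.K (N.arc e)) :
    9 / 10 * ((N.arc e).c1 * ((P.D : ℝ) / N.X e)) - 1 / 400 ≤ y (N.arc e).a := by
  have := (h.relK hy he k).1
  have := mul_le_mul_of_nonneg_left (h.le_wg he) (Nat.cast_nonneg (α := ℝ) (N.arc e).c1)
  linarith

theorem le_price (h : Shp S P B N) (hy : Dual P N y) (he : e ∈ N.E) (k : S.K (N.arc e))
    (f : (P.s0 : ℤ) ≤ N.X e) : y (N.arc e).a ≤ 11 / 10 * ((N.arc e).c1 * ((P.D : ℝ) / N.X e)) := by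
  rw [← h.wg_eq f]; exact (h.relK hy he k).2

theorem pend_le' (h : Shp S P B N) (hy : Dual P N y) (he : e ∈ N.E) (k : S.U P (N.arc e)) :
    y (N.arc e).a ≤ 11 / 10 * wg P (fl P N e) + 11 / 5 * S.Z := by
  have := (h.relU hy he k).2
  have f0 := h.fl_pos he
  have : 0 < wg P (2 - fl P N e) := wt_pos (by linarith [h.fl_lt_two he k])
  have w := h.wg_le (s := fl P N e + 1) (t := 1) (by norm_num) (by linarith)
  have := mul_le_mul_of_nonneg_left w (by positivity : (0 : ℝ) ≤ 2 * S.Z)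
  linarith

/-- the dual of a pending vertex is small unless its sink is nearly empty -/
theorem pend_le (h : Shp S P B N) (hy : Dual P N y) (he : e ∈ N.E) (k : S.U P (N.arc e))
    (f : (P.s0 : ℤ) ≤ N.X e) : y (N.arc e).a ≤ 11 / 10 * ((P.D : ℝ) / N.X e) + 11 / 5 * S.Z := by
  rw [← h.wg_eq f]; exact h.pend_le' hy he k

/-- the dual of a pending vertex that does not ask for a label -/
theorem le_pend (h : Shp S P B N) (hy : Dual P N y) (he : e ∈ N.E) (k : S.U P (N.arc e))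
    (f : 10 * N.X e ≤ 11 * P.D) : 6 / 7 * (S.Z : ℝ) - 1 ≤ y (N.arc e).a := by
  have := (h.relU hy he k).1
  have f0 := h.fl_pos he
  have f1 : fl P N e ≤ 11 / 10 := by
    have : (10 : ℝ) * N.X e ≤ 11 * P.D := by exact_mod_cast f
    rw [fl, div_le_iff₀ h.Dpos]; linarith
  have w := h.wg_le (s := 2 - fl P N e) (t := 9 / 10) (by norm_num) (by linarith)
  have w1 : 1 / (11 / 10) ≤ wg P (fl P N e) :=
    (one_div_le_one_div_of_le f0 f1).trans (one_div_le_wt f0)
  have w2 : 1 / (21 / 10) ≤ wg P (fl P N e + 1) :=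
    (one_div_le_one_div_of_le (by linarith) (by linarith)).trans (one_div_le_wt (by linarith))
  have := mul_le_mul_of_nonneg_left w2 (by positivity : (0 : ℝ) ≤ 2 * S.Z)
  norm_num at w w1 this ⊢
  linarith

theorem yC_clm (h : Shp S P B N) (hy : Dual P N y) (c : Clm S P N Q) (hv : v ∈ S.C) :
    y v ≤ 11 / 5 * Q := by
  obtain ⟨e, he, k, rfl⟩ := h.sk v hv
  have a := c.snk e he k
  have c1 := (h.arc e he).1.2.2.2.2.1
  have x0 := h.pos he
  have f : (P.s0 : ℤ) ≤ N.X e := by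
    have s : ((2 * Q * P.s0 : ℕ) : ℤ) ≤ P.D := by exact_mod_cast c.σ
    have q : (1 : ℤ) ≤ Q := by exact_mod_cast c.Q1
    have : (1 : ℤ) ≤ (N.arc e).c1 := by exact_mod_cast c1
    have : (0 : ℤ) ≤ P.D := Nat.cast_nonneg _
    push_cast at s
    have : 2 * (Q : ℤ) * P.s0 ≤ 2 * Q * N.X e := by nlinarith
    exact le_of_mul_le_mul_left this (by omega)
  have := h.le_price hy he k f
  have a' : ((N.arc e).c1 : ℝ) * P.D ≤ 2 * Q * N.X e := by exact_mod_cast a
  have : ((N.arc e).c1 : ℝ) * ((P.D : ℝ) / N.X e) ≤ 2 * Q := by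
    rw [← mul_div_assoc, div_le_iff₀ (by exact_mod_cast x0)]; exact a'
  linarith

/-- **ghosts carry almost nothing** -/
theorem ghost_le (h : Shp S P B N) (hq : Quiet P N) (c : Clm S P N Q) (he : e ∈ N.E)
    (k : S.G (N.arc e)) : Q * N.X e ≤ P.D := by
  obtain ⟨y, hy⟩ := Quiet.dual hq
  obtain ⟨i, hi, q, r, -⟩ := h.exists_outH k.2.1
  have l := (h.relG hy he k).2
  have w := h.wg_anti he (h.in_le_out he hi k.2.1 r)
  have Q1 : (1 : ℝ) ≤ Q := by exact_mod_cast c.Q1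
  have u : y (N.arc e).b ≤ 11 / 10 * wg P (fl P N e) + 11 / 5 * Q := by
    rw [← r]
    rcases q with a | a
    · have := h.pend_le' hy hi a
      have : (S.Z : ℝ) ≤ Q := by exact_mod_cast c.Z
      linarith
    · have := (h.relN hy hi a).2
      have : 0 < wg P ((S.b : ℝ) / P.D - fl P N i) := wt_pos (by linarith [h.fl_lt_b hi])
      have := h.yC_clm hy c a.2.1
      linarith
  rw [c.π] at l
  push_cast at l
  by_contra k'
  have k2 : (P.D : ℝ) < Q * N.X e := by exact_mod_cast not_le.1 k'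
  have s : 2 * (Q : ℝ) * P.s0 ≤ P.D := by exact_mod_cast c.σ
  have : wg P (fl P N e) ≤ 1 / (1 / Q) := wt_le (σ0_nonneg P) (by positivity) (by
      rw [σ0, div_le_div_iff₀ h.Dpos (by positivity)]
      have : (0 : ℝ) ≤ Q * P.s0 := by positivity
      linarith) (by rw [fl, div_le_div_iff₀ (by positivity) h.Dpos]; linarith)
  rw [one_div_one_div] at this
  linarith

/-- **closed sets**: a set of heads and classes whose arcs come from inside, from ghosts or from
the list `R` of entries has small sinks -/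
theorem closed (h : Shp S P B N) (hq : Quiet P N) (c : Clm S P N Q) {A C R : Finset ℕ}
    (hA : A ⊆ S.H) (hC : C ⊆ S.C) (hR : R ⊆ N.E)
    (cl : ∀ e ∈ N.E, (N.arc e).b ∈ A ∪ C → (N.arc e).a ∈ A ∪ C ∨ S.G (N.arc e) ∨ e ∈ R)
    {w : ℕ → ℕ} (hw : ∀ e ∈ N.E, S.K (N.arc e) → (N.arc e).a ∈ C → w (N.arc e).a ≤ (N.arc e).c1) :
    (∑ c ∈ C, w c) * P.D ≤ 8 * A.card * P.D + 2 * Q * R.card * S.b := by
  classical
  have h0 : 0 ∉ A ∪ C := fun k => (mem_union.1 k).elim (fun k => h.h0 (hA k)) fun k => h.c0 (hC k)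
  have cs := h.cons_set h0
  have p : ∀ i ∈ N.E, 0 ≤ N.X i := fun i k => (h.pos k).le
  set I := N.E.filter fun e => (N.arc e).a ∈ A ∪ C ∧ (N.arc e).b ∈ A ∪ C
  set K := N.E.filter fun e => S.K (N.arc e) ∧ (N.arc e).a ∈ C
  set G := N.E.filter fun e => S.G (N.arc e) ∧ (N.arc e).b ∈ A
  have o : ∑ e ∈ I, N.X e + ∑ e ∈ K, N.X e ≤ ∑ e ∈ N.E with (N.arc e).a ∈ A ∪ C, N.X e := by
    have dj : Disjoint I K := disjoint_filter.2 fun e _ a b => h0 (b.1.2.1 ▸ a.2)
    rw [← sum_union dj]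
    refine sum_le_sum_of_subset_of_nonneg (fun e k => ?_) fun i k _ => p i (mem_filter.1 k).1
    rcases mem_union.1 k with k | k <;> rw [mem_filter] at k ⊢
    exacts [⟨k.1, k.2.1⟩, ⟨k.1, mem_union_right _ k.2.2⟩]
  have i : ∑ e ∈ N.E with (N.arc e).b ∈ A ∪ C, N.X e ≤
      ∑ e ∈ I, N.X e + ∑ e ∈ G, N.X e + ∑ e ∈ R, N.X e := by
    have s : (N.E.filter fun e => (N.arc e).b ∈ A ∪ C) ⊆ I ∪ G ∪ R := fun e k => by
      obtain ⟨k1, k2⟩ := mem_filter.1 k
      rcases cl e k1 k2 with a | a | a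
      · exact mem_union_left _ (mem_union_left _ (mem_filter.2 ⟨k1, a, k2⟩))
      · exact mem_union_left _ (mem_union_right _ (mem_filter.2 ⟨k1, a,
          (mem_union.1 k2).resolve_right fun b => h.notC a.2.1 (hC b)⟩))
      · exact mem_union_right _ a
    have u : ∀ s t : Finset ℕ, s ⊆ N.E → t ⊆ N.E →
        ∑ e ∈ s ∪ t, N.X e ≤ ∑ e ∈ s, N.X e + ∑ e ∈ t, N.X e := fun s t a _ => by
      rw [← sum_union_inter]
      exact le_add_of_nonneg_right (sum_nonneg fun i k => p i (a (mem_inter.1 k).1))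
    have IG : I ∪ G ⊆ N.E := union_subset (filter_subset _ _) (filter_subset _ _)
    refine (sum_le_sum_of_subset_of_nonneg s fun i k _ => p i (union_subset IG hR k)).trans
      ((u _ _ IG hR).trans ?_)
    linarith [u I G (filter_subset _ _) (filter_subset _ _)]
  have g : (Q : ℤ) * ∑ e ∈ G, N.X e ≤ 4 * A.card * P.D := by
    have c1 : G.card ≤ 4 * A.card := by
      refine card_le_mul_card_image_of_maps_to (f := fun e => (N.arc e).b)
        (fun e k => (mem_filter.1 k).2.2) 4 fun a ha => le_trans (card_le_card fun e k => ?_)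
        (h.hin a (hA ha))
      rw [mem_filter] at k
      exact mem_inn.2 ⟨(mem_filter.1 k.1).1, k.2⟩
    rw [mul_sum]
    refine (sum_le_card_nsmul _ _ (P.D : ℤ) fun e k => h.ghost_le hq c (mem_filter.1 k).1
      (mem_filter.1 k).2.1).trans ?_
    rw [nsmul_eq_mul]
    exact mul_le_mul_of_nonneg_right (by exact_mod_cast c1) (Nat.cast_nonneg _)
  have r : ∑ e ∈ R, N.X e ≤ R.card * S.b := by
    rw [← nsmul_eq_mul]; exact sum_le_card_nsmul _ _ _ fun e k => (h.lt_b (hR k)).le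
  have k : (∑ c ∈ C, (w c : ℤ)) * P.D ≤ 2 * Q * ∑ e ∈ K, N.X e := by
    rw [← sum_fiberwise_of_maps_to (s := K) (t := C) (g := fun e => (N.arc e).a)
      fun e k => (mem_filter.1 k).2.2, sum_mul, mul_sum]
    refine sum_le_sum fun v hv => ?_
    obtain ⟨e, he, a, rfl⟩ := h.sk v (hC hv)
    have := c.snk e he a
    have w1 : (w (N.arc e).a : ℤ) ≤ (N.arc e).c1 := by exact_mod_cast hw e he a hv
    have s : N.X e ≤ ∑ i ∈ K with (N.arc i).a = (N.arc e).a, N.X i :=
      single_le_sum (fun i k => p i (mem_filter.1 (mem_filter.1 k).1).1)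
        (mem_filter.2 ⟨mem_filter.2 ⟨he, a, hv⟩, rfl⟩)
    have : (0 : ℤ) ≤ P.D := Nat.cast_nonneg _
    have : (0 : ℤ) ≤ Q := Nat.cast_nonneg _
    nlinarith
  have q : (0 : ℤ) ≤ Q := Nat.cast_nonneg _
  have : (∑ c ∈ C, (w c : ℤ)) * P.D ≤ 8 * A.card * P.D + 2 * Q * R.card * S.b := by nlinarith
  exact_mod_cast this

end Shp

end Crest.Agent.N325.Du
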