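import Crest.Agent.N325.Ip.Bar

/-!
# Row 325, P2 (helper61): what the approximate duals say about one arc
-/

set_option autoImplicit false
open Finset

namespace Crest.Agent.N325.Du

open Crest.Agent.N325.Ip Crest.Agent.N325.Ipm

variable {P : Pm} {A : Arc} {x : ℤ} {d : ℝ}

/-- the dual inequality of one arc, `d = y head - y tail` -/
def Q1 (P : Pm) (A : Arc) (x : ℤ) (d : ℝ) : Prop := |gr P A x - d| ≤ ln P A x / 10

/-- the duals of a quiet network -/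
def Dual (P : Pm) (N : Net) (y : ℕ → ℝ) : Prop :=
  y 0 = 0 ∧ ∀ e ∈ N.E, Q1 P (N.arc e) (N.X e) (y (N.arc e).b - y (N.arc e).a)

theorem Quiet.dual {N : Net} (h : Quiet P N) : ∃ y, Dual P N y := by
  obtain ⟨y, h⟩ := h
  refine ⟨fun v => y v - y 0, sub_self _, fun e he => ?_⟩
  have := h e he
  unfold Q1
  convert this using 3
  ring

theorem Q1.up (h : Q1 P A x d) : d ≤ A.p - 9 / 10 * (A.c1 * wt (σ0 P) (s1 P A x) +
    A.c2 * wt (σ0 P) (s2 P A x)) + 11 / 10 * (A.c3 * wt (σ0 P) (s3 P A x)) := by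
  have := (abs_le.1 h).1
  unfold gr ln at this
  linarith

theorem Q1.lo (h : Q1 P A x d) : A.p - 11 / 10 * (A.c1 * wt (σ0 P) (s1 P A x) +
    A.c2 * wt (σ0 P) (s2 P A x)) + 9 / 10 * (A.c3 * wt (σ0 P) (s3 P A x)) ≤ d := by
  have := (abs_le.1 h).2
  unfold gr ln at this
  linarith

/-- above the truncation point the weight is at most `1/t` -/
theorem wt_le {σ s t : ℝ} (hσ : 0 ≤ σ) (ht : 0 < t) (h1 : σ ≤ t) (h2 : t ≤ s) : wt σ s ≤ 1 / t :=
  (wt_anti hσ ht h2).trans_eq (wt_of_le h1)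

/-- a bounded weight bounds the slack from below -/
theorem le_of_wt {σ s W : ℝ} (hs : 0 < s) (h : wt σ s ≤ W) : 1 / W ≤ s := by
  have a := one_div_le_wt (s0 := σ) hs
  have b := wt_pos (s0 := σ) hs
  rw [div_le_iff₀ (b.trans_le h)]
  have := (div_le_iff₀ hs).1 (a.trans h)
  linarith

theorem wt_nonneg {σ s : ℝ} (hs : 0 < s) : 0 ≤ wt σ s := (wt_pos hs).le

/-- units: `k ≤ x` in units gives the real inequality -/
theorem le_div_D {k : ℝ} {z : ℤ} (hD : 1 ≤ P.D) (h : k * P.D ≤ z) : k ≤ (z : ℝ) / P.D := by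
  have : (0 : ℝ) < P.D := by exact_mod_cast hD
  rwa [le_div_iff₀ this]

theorem mul_le_of_le_div {k : ℝ} {z : ℝ} (hD : 1 ≤ P.D) (h : k ≤ z / P.D) : k * P.D ≤ z := by
  have : (0 : ℝ) < P.D := by exact_mod_cast hD
  rwa [le_div_iff₀ this] at h

/-- **floor**: bounded duals keep both slacks away from zero (domain of width `≥ 2`) -/
theorem Q1.floor {B : Bn} {e : ℕ} {Y : ℝ} (h : Q1 P A x d) (hD : 1 ≤ P.D) (hσ : P.s0 ≤ P.D)
    (hA : B.arc e A) (h1 : 0 < x + A.o1) (h3 : 0 < A.o3 - x) (hw : 2 * P.D ≤ A.o1 + A.o3)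
    (hd : |d| ≤ Y) :
    1 / (2 * (Y + A.p + A.c1 + A.c2 + A.c3)) ≤ s1 P A x ∧
      1 / (2 * (Y + A.p + A.c1 + A.c2 + A.c3)) ≤ s3 P A x := by
  obtain ⟨k1, k2, k3⟩ := slacks hD hA h1 h3
  have hD' : (0 : ℝ) < P.D := by exact_mod_cast hD
  have σ1 : σ0 P ≤ 1 := (div_le_one hD').2 (by exact_mod_cast hσ)
  have w1 := wt_pos (s0 := σ0 P) k1.1
  have w2 := wt_pos (s0 := σ0 P) k2.1
  have w3 := wt_pos (s0 := σ0 P) k3.1
  have c1 : (1 : ℝ) ≤ A.c1 := by exact_mod_cast hA.2.2.2.2.1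
  have c3 : (1 : ℝ) ≤ A.c3 := by exact_mod_cast hA.2.2.2.2.2.1
  have c2 : (0 : ℝ) ≤ A.c2 := Nat.cast_nonneg _
  have p0 : (0 : ℝ) ≤ A.p := Nat.cast_nonneg _
  have o12 : (A.o1 : ℝ) ≤ A.o2 := by exact_mod_cast hA.2.2.2.2.2.2.2.1
  have a21 : s1 P A x ≤ s2 P A x := div_le_div_of_nonneg_right (by linarith) hD'.le
  have sum : 2 ≤ s1 P A x + s3 P A x := by
    have : (2 : ℝ) * P.D ≤ A.o1 + A.o3 := by exact_mod_cast hw
    unfold s1 s3
    rw [← add_div, le_div_iff₀ hD']; linarith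
  have d1 := (abs_le.1 hd).1
  have d2 := (abs_le.1 hd).2
  have Y0 : 0 ≤ Y := (abs_nonneg d).trans hd
  have one : 1 / (2 * (Y + A.p + A.c1 + A.c2 + A.c3)) ≤ 1 := by
    rw [div_le_one (by positivity)]; linarith
  rcases le_total 1 (s1 P A x) with k | k
  · refine ⟨one.trans k, le_of_wt (σ := σ0 P) k3.1 ?_⟩
    have u1 : wt (σ0 P) (s1 P A x) ≤ 1 / 1 := wt_le (σ0_nonneg P) one_pos σ1 k
    have u2 : wt (σ0 P) (s2 P A x) ≤ 1 / 1 := wt_le (σ0_nonneg P) one_pos σ1 (k.trans a21)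
    have := h.lo
    nlinarith [mul_le_mul_of_nonneg_left u1 (by linarith : (0 : ℝ) ≤ A.c1),
      mul_le_mul_of_nonneg_left u2 c2, mul_le_mul_of_nonneg_right c3 w3.le]
  · refine ⟨le_of_wt (σ := σ0 P) k1.1 ?_, one.trans (by linarith)⟩
    have u3 : wt (σ0 P) (s3 P A x) ≤ 1 / 1 := wt_le (σ0_nonneg P) one_pos σ1 (by linarith)
    have := h.up
    nlinarith [mul_le_mul_of_nonneg_left u3 (by linarith : (0 : ℝ) ≤ A.c3),
      mul_nonneg c2 w2.le, mul_le_mul_of_nonneg_right c1 w1.le]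

end Crest.Agent.N325.Du
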