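import Crest.Agent.N325.Du.Shp

/-!
# Row 325, P2 (helper61): ranges of the duals and the floor of all flows and slacks
-/

set_option autoImplicit false
open Finset

namespace Crest.Agent.N325.Du

open Crest.Agent.N325.Ip Crest.Agent.N325.Ipm

/-- the real flow -/
noncomputable def fl (P : Pm) (N : Net) (e : ℕ) : ℝ := (N.X e : ℝ) / P.D
/-- the weight -/
noncomputable def wg (P : Pm) (t : ℝ) : ℝ := wt (σ0 P) t

variable {S : Sh} {P : Pm} {B : Bn} {N : Net} {e v : ℕ} {y : ℕ → ℝ}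

namespace Shp

theorem Dpos (h : Shp S P B N) : (0 : ℝ) < P.D := by exact_mod_cast h.D

theorem σk (h : Shp S P B N) : σ0 P ≤ 1 / (8 * ((S.k : ℝ) + 1)) := by
  have : (8 : ℝ) * (S.k + 1) * P.s0 ≤ P.D := by exact_mod_cast h.σ
  rw [σ0, div_le_div_iff₀ h.Dpos (by positivity)]; linarith

theorem σ8 (h : Shp S P B N) : σ0 P ≤ 1 / 8 :=
  h.σk.trans (one_div_le_one_div_of_le (by norm_num) (by
    have : (0 : ℝ) ≤ S.k := Nat.cast_nonneg _
    linarith))

theorem wg_le (h : Shp S P B N) {s t : ℝ} (h1 : 1 / 8 ≤ t) (h2 : t ≤ s) : wg P s ≤ 1 / t :=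
  wt_le (σ0_nonneg P) (by linarith) (h.σ8.trans h1) h2

theorem fl_pos (h : Shp S P B N) (he : e ∈ N.E) : 0 < fl P N e :=
  div_pos (by exact_mod_cast h.pos he) h.Dpos

theorem wg_pos (h : Shp S P B N) (he : e ∈ N.E) : 0 < wg P (fl P N e) := wt_pos (h.fl_pos he)

theorem fl_le (h : Shp S P B N) {i : ℕ} (k : N.X e ≤ N.X i) : fl P N e ≤ fl P N i :=
  div_le_div_of_nonneg_right (by exact_mod_cast k) h.Dpos.le

theorem wg_anti (h : Shp S P B N) (he : e ∈ N.E) {i : ℕ} (k : N.X e ≤ N.X i) :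
    wg P (fl P N i) ≤ wg P (fl P N e) := wt_anti (σ0_nonneg P) (h.fl_pos he) (h.fl_le k)

theorem s1_eq (h : Shp S P B N) (he : e ∈ N.E) : s1 P (N.arc e) (N.X e) = fl P N e := by
  simp [s1, fl, (h.arc e he).2.1]

theorem s3_eq (e : ℕ) : s3 P (N.arc e) (N.X e) = ((N.arc e).o3 : ℝ) / P.D - fl P N e := by
  rw [s3, fl, sub_div]

theorem b64 (h : Shp S P B N) : (64 : ℝ) ≤ (S.b : ℝ) / P.D := by
  rw [le_div_iff₀ h.Dpos]; exact_mod_cast h.b2

theorem fl_lt_b (h : Shp S P B N) (he : e ∈ N.E) : fl P N e < (S.b : ℝ) / P.D :=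
  div_lt_div_of_pos_right (by exact_mod_cast h.lt_b he) h.Dpos

theorem far (h : Shp S P B N) (he : e ∈ N.E) (k : (N.arc e).o3 = S.M) :
    0 < wt (σ0 P) (s3 P (N.arc e) (N.X e)) ∧ wt (σ0 P) (s3 P (N.arc e) (N.X e)) ≤ 1 / 448 := by
  have a := h.fl_lt_b he
  have b := h.b64
  have c : 8 * ((S.b : ℝ) / P.D) ≤ (S.M : ℝ) / P.D := by
    rw [← mul_div_assoc]
    exact div_le_div_of_nonneg_right (by exact_mod_cast h.M2) h.Dpos.le
  have d : 448 ≤ s3 P (N.arc e) (N.X e) := by rw [s3_eq, k]; linarith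
  exact ⟨wt_pos (by linarith), h.wg_le (by norm_num) d⟩

theorem relG (h : Shp S P B N) (hy : Dual P N y) (he : e ∈ N.E) (k : S.G (N.arc e)) :
    y (N.arc e).b ≤ S.π - 9 / 10 * wg P (fl P N e) + 1 / 400 ∧
      S.π - 11 / 10 * wg P (fl P N e) ≤ y (N.arc e).b := by
  have u := (hy.2 e he).up
  have l := (hy.2 e he).lo
  obtain ⟨f0, f1⟩ := h.far he k.2.2.2.2.2
  rw [k.1, k.2.2.1, k.2.2.2.1, k.2.2.2.2.1, (h.arc e he).2.2.1, h.s1_eq he, hy.1] at u l
  unfold wg; push_cast at u l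
  constructor <;> linarith

theorem relA (h : Shp S P B N) (hy : Dual P N y) (he : e ∈ N.E) (k : S.A (N.arc e)) :
    y (N.arc e).b ≤ y (N.arc e).a - 9 / 10 * wg P (fl P N e) + 1 / 400 ∧
      y (N.arc e).a - 11 / 10 * wg P (fl P N e) ≤ y (N.arc e).b := by
  have u := (hy.2 e he).up
  have l := (hy.2 e he).lo
  obtain ⟨f0, f1⟩ := h.far he k.2.2.2.2.2
  rw [k.2.2.1, k.2.2.2.1, k.2.2.2.2.1, (h.arc e he).2.2.1, h.s1_eq he] at u l
  unfold wg; push_cast at u l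
  constructor <;> linarith

theorem relK (h : Shp S P B N) (hy : Dual P N y) (he : e ∈ N.E) (k : S.K (N.arc e)) :
    9 / 10 * ((N.arc e).c1 * wg P (fl P N e)) - 1 / 400 ≤ y (N.arc e).a ∧
      y (N.arc e).a ≤ 11 / 10 * ((N.arc e).c1 * wg P (fl P N e)) := by
  have u := (hy.2 e he).up
  have l := (hy.2 e he).lo
  obtain ⟨f0, f1⟩ := h.far he k.2.2.2.2.2
  rw [k.2.1, k.2.2.1, k.2.2.2.2.1, (h.arc e he).2.2.1, h.s1_eq he, hy.1] at u l
  unfold wg; push_cast at u l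
  constructor <;> linarith

theorem relN (h : Shp S P B N) (hy : Dual P N y) (he : e ∈ N.E) (k : S.N (N.arc e)) :
    y (N.arc e).b ≤ y (N.arc e).a - 9 / 10 * wg P (fl P N e) +
        11 / 10 * wg P ((S.b : ℝ) / P.D - fl P N e) ∧
      y (N.arc e).a - 11 / 10 * wg P (fl P N e) + 9 / 10 * wg P ((S.b : ℝ) / P.D - fl P N e) ≤
        y (N.arc e).b := by
  have u := (hy.2 e he).up
  have l := (hy.2 e he).lo
  rw [k.2.2.1, k.2.2.2.1, k.2.2.2.2.1, (h.arc e he).2.2.1, h.s1_eq he, s3_eq,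
    k.2.2.2.2.2] at u l
  unfold wg; push_cast at u l
  constructor <;> linarith

theorem relU (h : Shp S P B N) (hy : Dual P N y) (he : e ∈ N.E) (k : S.U P (N.arc e)) :
    9 / 10 * (wg P (fl P N e) + 2 * S.Z * wg P (fl P N e + 1)) - 11 / 10 * wg P (2 - fl P N e) ≤
        y (N.arc e).a ∧
      y (N.arc e).a ≤ 11 / 10 * (wg P (fl P N e) + 2 * S.Z * wg P (fl P N e + 1)) -
        9 / 10 * wg P (2 - fl P N e) := by
  have u := (hy.2 e he).up
  have l := (hy.2 e he).lo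
  have e2 : s2 P (N.arc e) (N.X e) = fl P N e + 1 := by
    rw [s2, fl, k.2.2.2.2.2.1, add_div, div_self h.Dpos.ne']
  have e3 : s3 P (N.arc e) (N.X e) = 2 - fl P N e := by
    rw [s3_eq, k.2.2.2.2.2.2]; push_cast; rw [mul_div_assoc, div_self h.Dpos.ne', mul_one]
  rw [k.2.1, k.2.2.1, k.2.2.2.1, k.2.2.2.2.1, (h.arc e he).2.2.1, h.s1_eq he, e2, e3, hy.1] at u l
  unfold wg; push_cast at u l
  constructor <;> linarith

theorem fl_lt_two (h : Shp S P B N) (he : e ∈ N.E) (k : S.U P (N.arc e)) : fl P N e < 2 := by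
  have a := (h.arc e he).2.2.2.2
  rw [k.2.2.2.2.2.2] at a
  rw [fl, div_lt_iff₀ h.Dpos]; exact_mod_cast a

theorem yH_up (h : Shp S P B N) (hy : Dual P N y) (hv : v ∈ S.H) : y v ≤ S.π + 1 / 400 := by
  obtain ⟨e, he, k, rfl⟩ := h.gh v hv
  have := (h.relG hy he k).1
  have := h.wg_pos he
  linarith

theorem yC_lo (h : Shp S P B N) (hy : Dual P N y) (hv : v ∈ S.C) : -(1 / 400) ≤ y v := by
  obtain ⟨e, he, k, rfl⟩ := h.sk v hv
  have := (h.relK hy he k).1
  have := mul_nonneg (Nat.cast_nonneg (α := ℝ) (N.arc e).c1) (h.wg_pos he).le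
  linarith

theorem yH_lo (h : Shp S P B N) (hy : Dual P N y) (hv : v ∈ S.H) : -6 ≤ y v := by
  obtain ⟨e, he, k, rfl, q⟩ := h.exists_outH hv
  have f0 := h.fl_pos he
  have w0 := h.wg_pos he
  rcases le_total 1 (fl P N e) with c | c
  · obtain ⟨i, hi, r⟩ := exists_big (h.hin _ hv) (q ▸ h.pos he)
    obtain ⟨i1, i2⟩ := mem_inn.1 hi
    have : 1 / 4 ≤ fl P N i := by
      rw [q] at r
      have r' : (N.X e : ℝ) ≤ 4 * N.X i := by exact_mod_cast r
      rw [fl, le_div_iff₀ h.Dpos] at c ⊢; linarith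
    have w := h.wg_le (by norm_num) this
    rcases h.kind_inH i1 (i2 ▸ hv) with a | a
    · have := (h.relG hy i1 a).2
      have : (0 : ℝ) ≤ S.π := Nat.cast_nonneg _
      rw [← i2]; norm_num at w; linarith
    · have := (h.relA hy i1 a).2
      have := h.yC_lo hy a.1
      rw [← i2]; norm_num at w; linarith
  · rcases k with a | a
    · have := (h.relU hy he a).1
      have w := h.wg_le (s := 2 - fl P N e) (t := 1) (by norm_num) (by linarith)
      have : 0 ≤ 2 * (S.Z : ℝ) * wg P (fl P N e + 1) :=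
        mul_nonneg (by positivity) (wt_pos (by linarith)).le
      linarith
    · have := (h.relN hy he a).1
      have := h.b64
      have w := h.wg_le (s := (S.b : ℝ) / P.D - fl P N e) (t := 1) (by norm_num) (by linarith)
      have := h.yC_lo hy a.2.1
      linarith

theorem yC_up (h : Shp S P B N) (hy : Dual P N y) (hv : v ∈ S.C) :
    y v ≤ S.π + 2 + 2 * ((S.W : ℝ) + 1) * (S.k + 1) := by
  obtain ⟨e, he, k, rfl, q⟩ := h.exists_inC hv
  have b := h.b64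
  have w0 := h.wg_pos he
  have π0 : (0 : ℝ) ≤ S.π := Nat.cast_nonneg _
  have W0 : (0 : ℝ) ≤ S.W := Nat.cast_nonneg _
  have k0 : (0 : ℝ) ≤ S.k := Nat.cast_nonneg _
  have m0 : 0 ≤ (S.W : ℝ) * S.k := by positivity
  rcases le_total (fl P N e) 32 with c | c
  · have := (h.relN hy he k).1
    have w := h.wg_le (s := (S.b : ℝ) / P.D - fl P N e) (t := 1) (by norm_num) (by linarith)
    have : y (N.arc e).a ≤ S.π + 1 / 400 := by
      rcases k.1 with a | a
      · exact h.yH_up hy a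
      · rw [a, hy.1]; linarith
    nlinarith
  · obtain ⟨i, hi, r⟩ := exists_big (h.cout _ hv) (q ▸ h.pos he)
    obtain ⟨i1, i2⟩ := mem_out.1 hi
    have : 1 / ((S.k : ℝ) + 1) ≤ fl P N i := by
      rw [q] at r
      have r' : (N.X e : ℝ) ≤ S.k * N.X i := by exact_mod_cast r
      have := h.Dpos
      have : (0 : ℝ) < N.X i := by exact_mod_cast h.pos i1
      rw [fl, le_div_iff₀ h.Dpos] at c
      rw [fl, div_le_div_iff₀ (by positivity) h.Dpos]; nlinarith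
    have w : wg P (fl P N i) ≤ S.k + 1 := by
      have := wt_le (σ0_nonneg P) (by positivity) (h.σk.trans
        (one_div_le_one_div_of_le (by positivity) (by linarith))) this
      rwa [one_div_one_div] at this
    rcases h.kind_outC i1 (i2 ▸ hv) with a | a
    · have := (h.relK hy i1 a).2
      have c1 : ((N.arc i).c1 : ℝ) ≤ S.W := by exact_mod_cast a.2.2.2.1
      have := mul_le_mul c1 w (h.wg_pos i1).le W0
      rw [← i2]; nlinarith
    · have := (h.relA hy i1 a).2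
      have := h.yH_up hy a.2.1
      rw [← i2]; nlinarith

/-- the range of the duals -/
theorem y_range (h : Shp S P B N) (hy : Dual P N y) (hv : v ∈ S.H ∨ v ∈ S.C ∨ v = 0) :
    -6 ≤ y v ∧ y v ≤ S.π + 2 + 2 * ((S.W : ℝ) + 1) * (S.k + 1) := by
  have : 0 ≤ 2 * ((S.W : ℝ) + 1) * (S.k + 1) := by positivity
  have π0 : (0 : ℝ) ≤ S.π := Nat.cast_nonneg _
  rcases hv with a | a | rfl
  · exact ⟨h.yH_lo hy a, by linarith [h.yH_up hy a]⟩
  · exact ⟨by linarith [h.yC_lo hy a], h.yC_up hy a⟩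
  · rw [hy.1]; constructor <;> linarith

theorem ends (h : Shp S P B N) (he : e ∈ N.E) :
    ((N.arc e).a ∈ S.H ∨ (N.arc e).a ∈ S.C ∨ (N.arc e).a = 0) ∧
      ((N.arc e).b ∈ S.H ∨ (N.arc e).b ∈ S.C ∨ (N.arc e).b = 0) ∧ (N.arc e).p ≤ S.π ∧
      2 * P.D ≤ (N.arc e).o3 := by
  have := h.b2
  have := h.M2
  rcases h.kind e he with a | a | a | a | a
  · exact ⟨.inr (.inr a.1), .inl a.2.1, a.2.2.1.le, by rw [a.2.2.2.2.2]; omega⟩
  · exact ⟨.inl a.1, .inr (.inr a.2.1), by rw [a.2.2.1]; omega, a.2.2.2.2.2.2.ge⟩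
  · exact ⟨a.1.elim .inl fun a => .inr (.inr a), .inr (.inl a.2.1), by rw [a.2.2.1]; omega,
      by rw [a.2.2.2.2.2]; omega⟩
  · exact ⟨.inr (.inl a.1), .inr (.inr a.2.1), by rw [a.2.2.1]; omega, by rw [a.2.2.2.2.2]; omega⟩
  · exact ⟨.inr (.inl a.1), .inl a.2.1, by rw [a.2.2.1]; omega, by rw [a.2.2.2.2.2]; omega⟩

/-- **floor**: in a quiet state every flow and every slack is at least `lam` -/
theorem floor (h : Shp S P B N) (hq : Quiet P N) {lam : ℕ}
    (hl : lam * (2 * (2 * S.π + 8 + 2 * (S.W + 1) * (S.k + 1) + B.cb)) ≤ P.D) (he : e ∈ N.E) :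
    (lam : ℤ) ≤ N.X e ∧ (lam : ℤ) ≤ (N.arc e).o3 - N.X e := by
  obtain ⟨y, hy⟩ := Quiet.dual hq
  obtain ⟨a, b, p, o⟩ := h.ends he
  obtain ⟨hA, o1, -, x0, x1⟩ := h.arc e he
  have ra := h.y_range hy a
  have rb := h.y_range hy b
  have hσ : P.s0 ≤ P.D := by have := h.σ; nlinarith
  have := (hy.2 e he).floor (Y := S.π + 8 + 2 * ((S.W : ℝ) + 1) * (S.k + 1)) h.D hσ hA
    (by rw [o1]; simpa using x0) (by omega) (by omega) (abs_le.2 ⟨by linarith, by linarith⟩)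
  have p' : ((N.arc e).p : ℝ) ≤ S.π := by exact_mod_cast p
  have c' : ((N.arc e).c1 : ℝ) + (N.arc e).c2 + (N.arc e).c3 ≤ B.cb := by
    exact_mod_cast hA.2.2.2.2.2.2.1
  have hl' : (lam : ℝ) * (2 * (2 * S.π + 8 + 2 * (S.W + 1) * (S.k + 1) + B.cb)) ≤ P.D := by
    exact_mod_cast hl
  have key : (lam : ℝ) / P.D ≤ 1 / (2 * (S.π + 8 + 2 * ((S.W : ℝ) + 1) * (S.k + 1) +
      (N.arc e).p + (N.arc e).c1 + (N.arc e).c2 + (N.arc e).c3)) := by
    rw [div_le_div_iff₀ h.Dpos (by positivity), one_mul]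
    exact le_trans (mul_le_mul_of_nonneg_left (by linarith) (Nat.cast_nonneg _)) hl'
  have k1 := key.trans this.1
  have k3 := key.trans this.2
  rw [s1, div_le_div_iff_of_pos_right h.Dpos, o1] at k1
  rw [s3, div_le_div_iff_of_pos_right h.Dpos] at k3
  exact ⟨by exact_mod_cast (by simpa using k1 : (lam : ℝ) ≤ N.X e), by exact_mod_cast k3⟩

end Shp

end Crest.Agent.N325.Du
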