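import Crest.Agent.N325.Du.Arc

/-!
# Row 325, P2 (helper61): the shape of the network of part II, flow bounds, kinds of arcs

`H` = heads (inner and pending vertices), `C` = classes, `0` = ground.  `π` = price of a ghost,
`b`, `M` = capacities in units (`b = B D`), `W` bounds the weights of the sinks.
-/

set_option autoImplicit false
open Finset

namespace Crest.Agent.N325.Du

open Crest.Agent.N325.Ip Crest.Agent.N325.Ipm

/-- numbers and node sets of the shape -/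
structure Sh where
  H : Finset ℕ
  C : Finset ℕ
  π : ℕ
  Z : ℕ
  b : ℕ
  M : ℕ
  W : ℕ
  k : ℕ

variable (S : Sh) (P : Pm)

/-- ghost -/
def Sh.G (A : Arc) : Prop :=
  A.a = 0 ∧ A.b ∈ S.H ∧ A.p = S.π ∧ A.c1 = 1 ∧ A.c2 = 0 ∧ A.o3 = S.M
/-- pending sink -/
def Sh.U (A : Arc) : Prop :=
  A.a ∈ S.H ∧ A.b = 0 ∧ A.p = 0 ∧ A.c1 = 1 ∧ A.c2 = 2 * S.Z ∧ A.o2 = P.D ∧ A.o3 = 2 * P.D
/-- node arc or root arc -/
def Sh.N (A : Arc) : Prop :=
  (A.a ∈ S.H ∨ A.a = 0) ∧ A.b ∈ S.C ∧ A.p = 0 ∧ A.c1 = 1 ∧ A.c2 = 0 ∧ A.o3 = S.b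
/-- sink of a class -/
def Sh.K (A : Arc) : Prop :=
  A.a ∈ S.C ∧ A.b = 0 ∧ A.p = 0 ∧ A.c1 ≤ S.W ∧ A.c2 = 0 ∧ A.o3 = S.M
/-- plain arc -/
def Sh.A (A : Arc) : Prop :=
  A.a ∈ S.C ∧ A.b ∈ S.H ∧ A.p = 0 ∧ A.c1 = 1 ∧ A.c2 = 0 ∧ A.o3 = S.M

/-- arcs into `v` -/
def inn (N : Net) (v : ℕ) : Finset ℕ := N.E.filter fun e => (N.arc e).b = v
/-- arcs out of `v` -/
def out (N : Net) (v : ℕ) : Finset ℕ := N.E.filter fun e => (N.arc e).a = v

/-- the shape -/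
structure Shp (B : Bn) (N : Net) : Prop where
  D : 1 ≤ P.D
  h0 : 0 ∉ S.H
  c0 : 0 ∉ S.C
  dj : Disjoint S.H S.C
  b2 : 64 * P.D ≤ S.b
  M2 : 8 * S.b ≤ S.M
  σ : 8 * (S.k + 1) * P.s0 ≤ P.D
  arc : ∀ e ∈ N.E, B.arc e (N.arc e) ∧ (N.arc e).o1 = 0 ∧ (N.arc e).c3 = 1 ∧ 0 < N.X e ∧
    N.X e < (N.arc e).o3
  kind : ∀ e ∈ N.E, S.G (N.arc e) ∨ S.U P (N.arc e) ∨ S.N (N.arc e) ∨ S.K (N.arc e) ∨
    S.A (N.arc e)
  cons : ∀ v, v ≠ 0 → ∑ e ∈ inn N v, N.X e = ∑ e ∈ out N v, N.X e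
  gh : ∀ h ∈ S.H, ∃ e ∈ N.E, S.G (N.arc e) ∧ (N.arc e).b = h
  sk : ∀ c ∈ S.C, ∃ e ∈ N.E, S.K (N.arc e) ∧ (N.arc e).a = c
  hout : ∀ h ∈ S.H, (out N h).card ≤ 1
  hin : ∀ h ∈ S.H, (inn N h).card ≤ 4
  cin : ∀ c ∈ S.C, (inn N c).card ≤ 1
  cout : ∀ c ∈ S.C, (out N c).card ≤ S.k

variable {S P} {B : Bn} {N : Net} {e v : ℕ}

theorem mem_inn : e ∈ inn N v ↔ e ∈ N.E ∧ (N.arc e).b = v := mem_filter
theorem mem_out : e ∈ out N v ↔ e ∈ N.E ∧ (N.arc e).a = v := mem_filter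

theorem sum_eq_of_card_le_one {s : Finset ℕ} (h : s.card ≤ 1) (he : e ∈ s) (f : ℕ → ℤ) :
    ∑ i ∈ s, f i = f e := by
  rw [eq_singleton_iff_unique_mem.2 ⟨he, fun x hx => card_le_one.1 h x hx e he⟩, sum_singleton]

theorem exists_big {s : Finset ℕ} {k : ℕ} {f : ℕ → ℤ} (h : s.card ≤ k) (hs : 0 < ∑ i ∈ s, f i) :
    ∃ e ∈ s, ∑ i ∈ s, f i ≤ k * f e := by
  obtain ⟨e, he, mx⟩ := exists_max_image s f (nonempty_of_sum_ne_zero hs.ne')
  have a : ∑ i ∈ s, f i ≤ s.card • f e := sum_le_card_nsmul s f _ mx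
  rw [nsmul_eq_mul] at a
  have p : 0 < f e := by
    by_contra c
    have : (s.card : ℤ) * f e ≤ 0 := mul_nonpos_of_nonneg_of_nonpos (Nat.cast_nonneg _) (not_lt.1 c)
    omega
  exact ⟨e, he, a.trans (mul_le_mul_of_nonneg_right (by exact_mod_cast h) p.le)⟩

namespace Shp

theorem pos (h : Shp S P B N) (he : e ∈ N.E) : 0 < N.X e := (h.arc e he).2.2.2.1

theorem le_in (h : Shp S P B N) (he : e ∈ N.E) : N.X e ≤ ∑ i ∈ inn N (N.arc e).b, N.X i :=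
  single_le_sum (fun _ k => (h.pos (mem_inn.1 k).1).le) (mem_inn.2 ⟨he, rfl⟩)

theorem le_out (h : Shp S P B N) (he : e ∈ N.E) : N.X e ≤ ∑ i ∈ out N (N.arc e).a, N.X i :=
  single_le_sum (fun _ k => (h.pos (mem_out.1 k).1).le) (mem_out.2 ⟨he, rfl⟩)

theorem neH (h : Shp S P B N) (k : v ∈ S.H) : v ≠ 0 := fun e => h.h0 (e ▸ k)
theorem neC (h : Shp S P B N) (k : v ∈ S.C) : v ≠ 0 := fun e => h.c0 (e ▸ k)
theorem notC (h : Shp S P B N) (k : v ∈ S.H) : v ∉ S.C := disjoint_left.1 h.dj k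
theorem notH (h : Shp S P B N) (k : v ∈ S.C) : v ∉ S.H := disjoint_right.1 h.dj k

/-- an arc into a class is a node arc -/
theorem kind_inC (h : Shp S P B N) (he : e ∈ N.E) (k : (N.arc e).b ∈ S.C) : S.N (N.arc e) := by
  rcases h.kind e he with a | a | a | a | a
  exacts [absurd k (h.notC a.2.1), absurd a.2.1 (h.neC k), a, absurd a.2.1 (h.neC k),
    absurd k (h.notC a.2.1)]

/-- an arc out of a head is a pending sink or a node arc -/
theorem kind_outH (h : Shp S P B N) (he : e ∈ N.E) (k : (N.arc e).a ∈ S.H) :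
    S.U P (N.arc e) ∨ S.N (N.arc e) := by
  rcases h.kind e he with a | a | a | a | a
  exacts [absurd a.1 (h.neH k), .inl a, .inr a, absurd a.1 (h.notC k), absurd a.1 (h.notC k)]

/-- an arc into a head is a ghost or a plain arc -/
theorem kind_inH (h : Shp S P B N) (he : e ∈ N.E) (k : (N.arc e).b ∈ S.H) :
    S.G (N.arc e) ∨ S.A (N.arc e) := by
  rcases h.kind e he with a | a | a | a | a
  exacts [.inl a, absurd a.2.1 (h.neH k), absurd a.2.1 (h.notC k), absurd a.2.1 (h.neH k), .inr a]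

/-- an arc out of a class is its sink or a plain arc -/
theorem kind_outC (h : Shp S P B N) (he : e ∈ N.E) (k : (N.arc e).a ∈ S.C) :
    S.K (N.arc e) ∨ S.A (N.arc e) := by
  rcases h.kind e he with a | a | a | a | a
  exacts [absurd a.1 (h.neC k), absurd k (h.notC a.1),
    a.1.elim (fun a => absurd k (h.notC a)) fun a => absurd a (h.neC k), .inl a, .inr a]

/-- the arc into a class carries its throughput -/
theorem exists_inC (h : Shp S P B N) (hc : v ∈ S.C) : ∃ e ∈ N.E, S.N (N.arc e) ∧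
    (N.arc e).b = v ∧ ∑ i ∈ out N v, N.X i = N.X e := by
  obtain ⟨e, he, -, rfl⟩ := h.sk v hc
  have a := (h.pos he).trans_le (h.le_out he)
  rw [← h.cons _ (h.neC hc)] at a ⊢
  obtain ⟨i, hi⟩ := nonempty_of_sum_ne_zero a.ne'
  obtain ⟨i1, i2⟩ := mem_inn.1 hi
  exact ⟨i, i1, h.kind_inC i1 (i2 ▸ hc), i2, sum_eq_of_card_le_one (h.cin _ hc) hi _⟩

/-- the arc out of a head carries its throughput -/
theorem exists_outH (h : Shp S P B N) (hv : v ∈ S.H) : ∃ e ∈ N.E, (S.U P (N.arc e) ∨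
    S.N (N.arc e)) ∧ (N.arc e).a = v ∧ ∑ i ∈ inn N v, N.X i = N.X e := by
  obtain ⟨e, he, -, rfl⟩ := h.gh v hv
  have a := (h.pos he).trans_le (h.le_in he)
  rw [h.cons _ (h.neH hv)] at a ⊢
  obtain ⟨i, hi⟩ := nonempty_of_sum_ne_zero a.ne'
  obtain ⟨i1, i2⟩ := mem_out.1 hi
  exact ⟨i, i1, h.kind_outH i1 (i2 ▸ hv), i2, sum_eq_of_card_le_one (h.hout _ hv) hi _⟩

theorem in_le_out (h : Shp S P B N) (he : e ∈ N.E) {i : ℕ} (hi : i ∈ N.E) (k : (N.arc e).b ∈ S.H)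
    (q : (N.arc i).a = (N.arc e).b) : N.X e ≤ N.X i := by
  have a := h.le_in he
  rwa [h.cons _ (h.neH k), sum_eq_of_card_le_one (h.hout _ k) (mem_out.2 ⟨hi, q⟩)] at a

theorem out_le_in (h : Shp S P B N) (he : e ∈ N.E) {i : ℕ} (hi : i ∈ N.E) (k : (N.arc e).a ∈ S.C)
    (q : (N.arc i).b = (N.arc e).a) : N.X e ≤ N.X i := by
  have a := h.le_out he
  rwa [← h.cons _ (h.neC k), sum_eq_of_card_le_one (h.cin _ k) (mem_inn.2 ⟨hi, q⟩)] at a

theorem lt_b_UN (h : Shp S P B N) (he : e ∈ N.E) (k : S.U P (N.arc e) ∨ S.N (N.arc e)) :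
    N.X e < S.b := by
  have a := (h.arc e he).2.2.2.2
  have := h.b2
  rcases k with k | k
  · rw [k.2.2.2.2.2.2] at a; omega
  · rwa [k.2.2.2.2.2] at a

/-- every flow is below the node capacity -/
theorem lt_b (h : Shp S P B N) (he : e ∈ N.E) : N.X e < S.b := by
  have inH : (N.arc e).b ∈ S.H → N.X e < S.b := fun k => by
    obtain ⟨i, hi, q, r, -⟩ := h.exists_outH k
    exact (h.in_le_out he hi k r).trans_lt (h.lt_b_UN hi q)
  rcases h.kind e he with a | a | a | a | a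
  · exact inH a.2.1
  · exact h.lt_b_UN he (.inl a)
  · exact h.lt_b_UN he (.inr a)
  · obtain ⟨i, hi, q, r, -⟩ := h.exists_inC a.1
    exact (h.out_le_in he hi a.1 r).trans_lt (h.lt_b_UN hi (.inr q))
  · exact inH a.2.1

/-- conservation on a set of nodes -/
theorem cons_set (h : Shp S P B N) {T : Finset ℕ} (h0 : 0 ∉ T) :
    ∑ e ∈ N.E with (N.arc e).b ∈ T, N.X e = ∑ e ∈ N.E with (N.arc e).a ∈ T, N.X e := by
  rw [← sum_fiberwise_of_maps_to (s := N.E.filter fun e => (N.arc e).b ∈ T) (t := T)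
      (g := fun e => (N.arc e).b) fun e k => (mem_filter.1 k).2,
    ← sum_fiberwise_of_maps_to (s := N.E.filter fun e => (N.arc e).a ∈ T) (t := T)
      (g := fun e => (N.arc e).a) fun e k => (mem_filter.1 k).2]
  refine sum_congr rfl fun v hv => ?_
  have := h.cons v fun k => h0 (k ▸ hv)
  unfold inn out at this
  rw [filter_filter, filter_filter]
  convert this using 2 <;> ext e <;> simp only [mem_filter] <;>
    exact ⟨fun k => ⟨k.1, k.2.2⟩, fun k => ⟨k.1, k.2 ▸ hv, k.2⟩⟩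

end Shp

end Crest.Agent.N325.Du
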